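import Vale.Agent.P067.Alg.Family
import Vale.Agent.P067.Bridge.Main

/-! The construction, from its modules to the statement of the problem. -/

namespace Vale.Agent.P067

open Finset

variable {n p : ℕ} [Fact p.Prime]

theorem card_Kq_le {s : ℕ} (t : Fin n) : Nat.card ↥(Kq n p s {t}) ≤ sizeBound n p := by
  have hfin := finite_K (n := n) (p := p) (singleton_nonempty t)
  refine le_trans (Nat.card_le_card_of_surjective
    (fun k : ↥(K n p {t}) => (⟨(QuotientGroup.mk (k : ↥(U n p)) : Omega n p s),
      mem_Kq.2 ⟨_, k.2, rfl⟩⟩ : ↥(Kq n p s {t}))) ?_) ?_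
  · rintro ⟨g, hg⟩
    obtain ⟨k, hk, rfl⟩ := mem_Kq.1 hg
    exact ⟨⟨k, hk⟩, rfl⟩
  · exact le_trans (Nat.le_mul_of_pos_left _ (by positivity)) (card_K_le_sizeBound {t})

/-- The answer, from the vanishing of cohomology, link expansion and the spectral module. -/
theorem main_of_specQ (hA : VanishStatement) (hL : LinkStatement) (hS : SpecQStatement) :
    MainStatement := by
  refine Bridge.main_of_family fun d hd => ?_
  obtain ⟨n, p, hp, hn, C, hfam⟩ := family_of_modules hA hL hS d
  refine ⟨n, sizeBound n p, C, hn, fun M => ?_⟩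
  obtain ⟨s, hs, hM, hE⟩ := hfam M
  have hΩ : Fintype (Omega n p s) := Fintype.ofFinite _
  refine ⟨Omega n p s, hΩ, cosetRel (Kq n p s),
    Bridge.goodSys_cosetRel (Kq n p s) (fun T g => mem_Kq_iff_forall (by omega))
      (fun t => card_Kq_le t), ?_, hE⟩
  rwa [← Nat.card_eq_fintype_card]

end Vale.Agent.P067
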