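import Vale.Agent.P067.Group

/-! Elementary algebra of `U`, its finite subgroups and its congruence quotients. -/

open Matrix Polynomial

namespace Vale.Agent.P067

variable {n p : ℕ} [Fact p.Prime]

theorem mem_K {T : Finset (Fin n)} {g : ↥(U n p)} :
    g ∈ K n p T ↔ ∀ a ∈ T, DegCond a g := Iff.rfl

theorem K_empty : K n p ∅ = ⊤ :=
  eq_top_iff.2 fun g _ a ha => absurd ha (Finset.notMem_empty a)

theorem K_anti {T T' : Finset (Fin n)} (h : T ⊆ T') : K n p T' ≤ K n p T :=
  fun _ hg a ha => hg a (h ha)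

theorem mem_K_iff_forall {T : Finset (Fin n)} {g : ↥(U n p)} :
    g ∈ K n p T ↔ ∀ t ∈ T, g ∈ K n p {t} :=
  ⟨fun hg t ht a ha => hg a (by rw [Finset.mem_singleton] at ha; rwa [ha]),
    fun hg a ha => hg a ha a (Finset.mem_singleton_self a)⟩

theorem finite_K {T : Finset (Fin n)} (hT : T.Nonempty) : Finite ↥(K n p T) := by
  obtain ⟨a, ha⟩ := hT
  exact ((finite_degCond a).subset fun g (hg : g ∈ K n p T) => hg a ha).to_subtype

theorem coeff_eq_zero_of_mem_K {T : Finset (Fin n)} (hT : T.Nonempty) {g : ↥(U n p)}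
    (hg : g ∈ K n p T) (i j : Fin n) {k : ℕ} (hk : 2 ≤ k) : (g.1.1 i j).coeff k = 0 := by
  obtain ⟨a, ha⟩ := hT
  by_contra hne
  have := hg a ha i j k hne
  split_ifs at this <;> omega

theorem mem_congrKer {ι : Type*} [Fintype ι] [DecidableEq ι] {q s : ℕ} {g : SLP ι q} :
    g ∈ congrKer ι q s ↔ ∀ i j, (X : (ZMod q)[X]) ^ s ∣ g.1 i j - (1 : Matrix ι ι (ZMod q)[X]) i j := by
  rw [congrKer, MonoidHom.mem_ker, Matrix.SpecialLinearGroup.ext_iff]
  refine forall₂_congr fun i j => ?_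
  rw [← Ideal.mem_span_singleton, ← Ideal.Quotient.eq]
  have h1 : (1 : Matrix.SpecialLinearGroup ι (Trunc q s)).1 i j =
      Ideal.Quotient.mk _ ((1 : Matrix ι ι (ZMod q)[X]) i j) := by
    rw [Matrix.SpecialLinearGroup.coe_one, Matrix.one_apply, Matrix.one_apply]
    split_ifs <;> simp
  rw [h1]
  rfl

theorem mem_Gam {s : ℕ} {g : ↥(U n p)} :
    g ∈ Gam n p s ↔ ∀ i j, (X : (ZMod p)[X]) ^ s ∣
      g.1.1 i j - (1 : Matrix (Fin n) (Fin n) (ZMod p)[X]) i j :=
  mem_congrKer

theorem quotient_eq_iff {s : ℕ} {g h : ↥(U n p)} :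
    (QuotientGroup.mk g : Omega n p s) = QuotientGroup.mk h ↔
      ∀ i j, (X : (ZMod p)[X]) ^ s ∣ g.1.1 i j - h.1.1 i j := by
  have key : (QuotientGroup.mk g : Omega n p s) = QuotientGroup.mk h ↔
      reduceHom (Fin n) p s g.1 = reduceHom (Fin n) p s h.1 := by
    rw [QuotientGroup.eq, Gam, Subgroup.mem_subgroupOf, congrKer, MonoidHom.mem_ker,
      Subgroup.coe_mul, Subgroup.coe_inv, map_mul, map_inv, inv_mul_eq_one]
  rw [key, Matrix.SpecialLinearGroup.ext_iff]
  refine forall₂_congr fun i j => ?_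
  rw [← Ideal.mem_span_singleton, ← Ideal.Quotient.eq]
  rfl

/-- Congruent elements with degree at most one are equal. -/
theorem eq_of_quotient_eq {s : ℕ} (hs : 2 ≤ s) {T T' : Finset (Fin n)} (hT : T.Nonempty)
    (hT' : T'.Nonempty) {g h : ↥(U n p)} (hg : g ∈ K n p T) (hh : h ∈ K n p T')
    (he : (QuotientGroup.mk g : Omega n p s) = QuotientGroup.mk h) : g = h := by
  rw [quotient_eq_iff] at he
  refine Subtype.ext (Matrix.SpecialLinearGroup.ext (A := g.1) (B := h.1) fun i j => ?_)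
  refine Polynomial.ext fun k => ?_
  by_cases hk : k < s
  · have := Polynomial.X_pow_dvd_iff.1 (he i j) k hk
    rwa [Polynomial.coeff_sub, sub_eq_zero] at this
  · rw [coeff_eq_zero_of_mem_K hT hg i j (by omega),
      coeff_eq_zero_of_mem_K hT' hh i j (by omega)]

theorem eq_one_of_mem_K_of_mem_Gam {s : ℕ} (hs : 2 ≤ s) {T : Finset (Fin n)} (hT : T.Nonempty)
    {g : ↥(U n p)} (hg : g ∈ K n p T) (hG : g ∈ Gam n p s) : g = 1 :=
  eq_of_quotient_eq hs hT hT hg (one_mem _)
    (by rw [QuotientGroup.mk_one, QuotientGroup.eq_one_iff]; exact hG)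

/-- `Gam` meets every conjugate of a finite stabiliser trivially. -/
theorem conj_mem_K_eq_one {s : ℕ} (hs : 2 ≤ s) {T : Finset (Fin n)} (hT : T.Nonempty)
    {g x : ↥(U n p)} (hg : x⁻¹ * g * x ∈ K n p T) (hG : g ∈ Gam n p s) : g = 1 := by
  have hn : (Gam n p s).Normal := inferInstance
  have h1 : x⁻¹ * g * x ∈ Gam n p s := by
    simpa using hn.conj_mem g hG x⁻¹
  have h2 := eq_one_of_mem_K_of_mem_Gam hs hT hg h1
  simpa [mul_assoc, inv_mul_eq_one, mul_inv_eq_one] using h2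

theorem mem_Kq {s : ℕ} {T : Finset (Fin n)} {g : Omega n p s} :
    g ∈ Kq n p s T ↔ ∃ k ∈ K n p T, (QuotientGroup.mk k : Omega n p s) = g := Iff.rfl

theorem Kq_empty (s : ℕ) : Kq n p s ∅ = ⊤ := by
  rw [Kq, K_empty, ← MonoidHom.range_eq_map]
  exact MonoidHom.range_eq_top.2 (QuotientGroup.mk'_surjective _)

theorem Kq_anti {s : ℕ} {T T' : Finset (Fin n)} (h : T ⊆ T') : Kq n p s T' ≤ Kq n p s T :=
  Subgroup.map_mono (K_anti h)

/-- In the quotient, the classes of a set of types are the intersections of the classes of its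
members. -/
theorem mem_Kq_iff_forall {s : ℕ} (hs : 2 ≤ s) {T : Finset (Fin n)} {g : Omega n p s} :
    g ∈ Kq n p s T ↔ ∀ t ∈ T, g ∈ Kq n p s {t} := by
  refine ⟨fun hg t ht => Kq_anti (Finset.singleton_subset_iff.2 ht) hg, fun hg => ?_⟩
  rcases T.eq_empty_or_nonempty with rfl | ⟨a, ha⟩
  · rw [Kq_empty]; exact Subgroup.mem_top g
  · obtain ⟨k, hk, rfl⟩ := mem_Kq.1 (hg a ha)
    refine mem_Kq.2 ⟨k, mem_K_iff_forall.2 fun t ht => ?_, rfl⟩
    obtain ⟨k', hk', he⟩ := mem_Kq.1 (hg t ht)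
    rw [← eq_of_quotient_eq hs (Finset.singleton_nonempty t) (Finset.singleton_nonempty a)
      hk' hk he]
    exact hk'

/-- The map from a finite stabiliser onto its image is injective. -/
theorem mk_injOn_K {s : ℕ} (hs : 2 ≤ s) {T : Finset (Fin n)} (hT : T.Nonempty) :
    Set.InjOn (QuotientGroup.mk : ↥(U n p) → Omega n p s) (K n p T) :=
  fun _ hg _ hh he => eq_of_quotient_eq hs hT hT hg hh he

theorem finite_trunc (q s : ℕ) [NeZero q] : Finite (Trunc q s) := by
  have := (Polynomial.monic_X_pow (R := ZMod q) s).finite_quotient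
  exact Module.finite_of_finite (ZMod q)

instance instFiniteOmega (s : ℕ) : Finite (Omega n p s) := by
  have := finite_trunc p s
  let f : Omega n p s → Matrix.SpecialLinearGroup (Fin n) (Trunc p s) :=
    fun g => reduceHom (Fin n) p s g.out.1
  refine Finite.of_injective f fun g h he => ?_
  rw [← QuotientGroup.out_eq' g, ← QuotientGroup.out_eq' h, quotient_eq_iff]
  intro i j
  rw [← Ideal.mem_span_singleton, ← Ideal.Quotient.eq]
  exact congrArg (fun M => M.1 i j) he

theorem pow_strict_lower {R : Type*} [CommRing R] {M : Matrix (Fin n) (Fin n) R}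
    (hM : ∀ i j : Fin n, (i : ℕ) ≤ j → M i j = 0) :
    ∀ (m : ℕ) (i j : Fin n), (i : ℕ) < j + m → (M ^ m) i j = 0 := by
  intro m
  induction m with
  | zero =>
    intro i j h
    rw [pow_zero, Matrix.one_apply_ne]
    rintro rfl
    omega
  | succ m ih =>
    intro i j h
    rw [pow_succ, Matrix.mul_apply]
    refine Finset.sum_eq_zero fun l _ => ?_
    by_cases h1 : (i : ℕ) < l + m
    · rw [ih i l h1, zero_mul]
    · rw [hM l j (by omega), mul_zero]

theorem coeff_zero_of_mem_U (g : ↥(U n p)) :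
    ∀ i j : Fin n, (i < j → (g.1.1 i j).coeff 0 = 0) ∧ (i = j → (g.1.1 i j).coeff 0 = 1) :=
  g.2

/-- Some power of `p` moves every element of `U` into the congruence subgroup. -/
theorem pow_mem_Gam (s : ℕ) (g : ↥(U n p)) : ∃ r : ℕ, g ^ (p ^ r) ∈ Gam n p s := by
  rcases Nat.eq_zero_or_pos n with rfl | hn
  · exact ⟨0, mem_Gam.2 fun i => i.elim0⟩
  have : Nonempty (Fin n) := ⟨⟨0, hn⟩⟩
  have : Fact (0 < n) := ⟨hn⟩
  set N : Matrix (Fin n) (Fin n) (ZMod p)[X] := g.1.1 - 1 with hN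
  have h0 : (Polynomial.constantCoeff.mapMatrix N) ^ n = 0 := by
    ext i j
    refine pow_strict_lower (fun a b hab => ?_) n i j (by omega)
    rw [RingHom.mapMatrix_apply, Matrix.map_apply, hN, Matrix.sub_apply,
      Polynomial.constantCoeff_apply, Polynomial.coeff_sub, Matrix.one_apply]
    rcases lt_or_eq_of_le hab with h1 | h1
    · rw [(coeff_zero_of_mem_U g a b).1 h1, if_neg (fun e => by simp [e] at h1)]
      simp
    · rw [(coeff_zero_of_mem_U g a b).2 (Fin.ext h1), if_pos (Fin.ext h1)]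
      simp
  have hdiv : ∀ i j, (X : (ZMod p)[X]) ∣ (N ^ n) i j := by
    intro i j
    rw [Polynomial.X_dvd_iff]
    have := congrFun (congrFun h0 i) j
    rw [← map_pow] at this
    simpa [RingHom.mapMatrix_apply, Matrix.map_apply] using this
  choose M hM using hdiv
  have hNn : N ^ n = (X : (ZMod p)[X]) • Matrix.of M := by
    ext i j : 1
    simp [hM i j]
  obtain ⟨r, hr⟩ : ∃ r : ℕ, n * s ≤ p ^ r :=
    ⟨n * s, (Nat.lt_pow_self (Fact.out : p.Prime).one_lt).le⟩
  refine ⟨r, mem_Gam.2 fun i j => ?_⟩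
  have hexp : (g.1.1) ^ (p ^ r) = 1 + N ^ (p ^ r) := by
    have h1 := add_pow_char_pow_of_commute (p := p) (n := r) (x := (1 : Matrix (Fin n) (Fin n) (ZMod p)[X]))
      (y := N) (Commute.one_left N)
    rwa [one_pow, hN, add_sub_cancel] at h1
  have hg : (g ^ (p ^ r)).1.1 = g.1.1 ^ (p ^ r) := by
    rw [Subgroup.coe_pow, Matrix.SpecialLinearGroup.coe_pow]
  rw [hg, hexp, Matrix.add_apply, add_sub_cancel_left]
  obtain ⟨e, he⟩ := Nat.exists_eq_add_of_le hr
  rw [he, pow_add, pow_mul, hNn, _root_.smul_pow, Matrix.smul_mul, Matrix.smul_apply, smul_eq_mul]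
  exact dvd_mul_right _ _

theorem isPGroup_Omega (s : ℕ) : IsPGroup p (Omega n p s) := by
  intro g
  obtain ⟨h, rfl⟩ := QuotientGroup.mk_surjective g
  obtain ⟨r, hr⟩ := pow_mem_Gam s h
  exact ⟨r, by rw [← QuotientGroup.mk_pow, QuotientGroup.eq_one_iff]; exact hr⟩

theorem card_Omega (s : ℕ) : ∃ k : ℕ, Nat.card (Omega n p s) = p ^ k :=
  IsPGroup.iff_card.1 (isPGroup_Omega s)

theorem card_K {T : Finset (Fin n)} (hT : T.Nonempty) : ∃ k : ℕ, Nat.card ↥(K n p T) = p ^ k := by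
  obtain ⟨k, hk⟩ := card_Omega (n := n) (p := p) 2
  let f : ↥(K n p T) →* Omega n p 2 := (QuotientGroup.mk' _).comp (K n p T).subtype
  have hf : Function.Injective f :=
    fun g h he => Subtype.ext (eq_of_quotient_eq le_rfl hT hT g.2 h.2 he)
  have h1 : Nat.card ↥(K n p T) ∣ p ^ k := hk ▸ Subgroup.card_dvd_of_injective f hf
  obtain ⟨l, -, hl⟩ := (Nat.dvd_prime_pow (Fact.out : p.Prime)).1 h1
  exact ⟨l, hl⟩

theorem odd_card_Omega (hp : p ≠ 2) (s : ℕ) : Odd (Nat.card (Omega n p s)) := by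
  obtain ⟨k, hk⟩ := card_Omega (n := n) (p := p) s
  rw [hk]
  exact ((Fact.out : p.Prime).odd_of_ne_two hp).pow

theorem odd_card_K (hp : p ≠ 2) {T : Finset (Fin n)} (hT : T.Nonempty) :
    Odd (Nat.card ↥(K n p T)) := by
  obtain ⟨k, hk⟩ := card_K (p := p) hT
  rw [hk]
  exact ((Fact.out : p.Prime).odd_of_ne_two hp).pow

/-- The number of chambers grows with the level. -/
theorem le_card_Omega (hn : 2 ≤ n) (s : ℕ) : s ≤ Nat.card (Omega n p s) + 1 := by
  have h01 : (⟨0, by omega⟩ : Fin n) ≠ ⟨1, by omega⟩ := by simp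
  have hmem : ∀ k : ℕ, Matrix.SpecialLinearGroup.transvection h01 ((X : (ZMod p)[X]) ^ (k + 1)) ∈
      U n p := by
    intro k i j
    have hval : constantCoeff (((Matrix.SpecialLinearGroup.transvection h01
        ((X : (ZMod p)[X]) ^ (k + 1))).1) i j) = (1 : Matrix (Fin n) (Fin n) (ZMod p)) i j := by
      rw [Matrix.SpecialLinearGroup.transvection_coe, Matrix.add_apply, map_add,
        Matrix.one_apply, Matrix.one_apply, Matrix.single_apply]
      split_ifs <;> simp
    refine ⟨fun hij => hval.trans (Matrix.one_apply_ne hij.ne), fun hij => hval.trans ?_⟩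
    rw [hij, Matrix.one_apply_eq]
  let f : Fin (s - 1) → Omega n p s := fun k => QuotientGroup.mk ⟨_, hmem k⟩
  have hf : Function.Injective f := by
    intro k l he
    have := quotient_eq_iff.1 he ⟨0, by omega⟩ ⟨1, by omega⟩
    have h2 := Polynomial.X_pow_dvd_iff.1 this ((k : ℕ) + 1) (by omega)
    simp [Matrix.SpecialLinearGroup.transvection_coe, Polynomial.coeff_X_pow] at h2
    exact Fin.ext (by split_ifs at h2 with h3 <;> simp_all)
  have := Nat.card_le_card_of_injective f hf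
  rw [Nat.card_eq_fintype_card, Fintype.card_fin] at this
  omega

end Vale.Agent.P067
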