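import Vale.Agent.P067.Alg.Basic

/-! A finite stabiliser is generated by the stabilisers of the larger type sets when at least
three types are missing. -/

open Matrix Polynomial

namespace Vale.Agent.P067

variable {n p : ℕ} [Fact p.Prime]

/-- The power of the variable carried by an off-diagonal position. -/
def wind (i j : Fin n) : ℕ := if i < j then 1 else 0

/-- A position is allowed at a type. -/
def Allowed (a i j : Fin n) : Prop :=
  wind i j + (if j < a then 1 else 0) ≤ if i < a then 1 else 0

/-- The height of a position. -/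
def height (i j : Fin n) : ℕ := (i : ℕ) + n * wind i j - j

/-- A root element of `U`. -/
noncomputable def rootElt {i j : Fin n} (hij : i ≠ j) (c : ZMod p) : ↥(U n p) :=
  ⟨Matrix.SpecialLinearGroup.transvection hij (C c * X ^ wind i j), by
    intro a b
    have hval : constantCoeff (((Matrix.SpecialLinearGroup.transvection hij
        (C c * X ^ wind i j : (ZMod p)[X])).1) a b) =
        (1 : Matrix (Fin n) (Fin n) (ZMod p)) a b + if i = a ∧ j = b ∧ ¬ i < j then c else 0 := by
      rw [Matrix.SpecialLinearGroup.transvection_coe, Matrix.add_apply, map_add, wind,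
        Matrix.one_apply, Matrix.one_apply, Matrix.single_apply]
      by_cases hpos : i = a ∧ j = b
      · obtain ⟨rfl, rfl⟩ := hpos
        by_cases hlt : i < j <;> simp [hlt, hij]
      · rw [if_neg hpos, if_neg (show ¬(i = a ∧ j = b ∧ ¬ i < j) from fun h => hpos ⟨h.1, h.2.1⟩)]
        split_ifs <;> simp
    refine ⟨fun hab => hval.trans ?_, fun hab => hval.trans ?_⟩
    · rw [Matrix.one_apply_ne hab.ne, if_neg, add_zero]
      rintro ⟨rfl, rfl, h⟩
      exact h hab
    · rw [hab, Matrix.one_apply_eq, if_neg, add_zero]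
      rintro ⟨h1, h2, -⟩
      exact hij (h1.trans h2.symm)⟩

theorem rootElt_apply {i j : Fin n} (hij : i ≠ j) (c : ZMod p) :
    (rootElt (p := p) hij c).1.1 =
      (1 : Matrix (Fin n) (Fin n) (ZMod p)[X]) + Matrix.single i j (C c * X ^ wind i j) := rfl

theorem rootElt_mem_K {i j : Fin n} (hij : i ≠ j) (c : ZMod p) {T : Finset (Fin n)}
    (hT : ∀ a ∈ T, Allowed a i j) : rootElt hij c ∈ K n p T := by
  intro a ha x y k hne
  rw [rootElt_apply, Matrix.add_apply, Polynomial.coeff_add, Matrix.one_apply,
    Matrix.single_apply] at hne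
  by_cases h1 : i = x ∧ j = y
  · obtain ⟨rfl, rfl⟩ := h1
    rw [if_neg hij, if_pos ⟨rfl, rfl⟩, Polynomial.coeff_zero, zero_add,
      Polynomial.coeff_C_mul_X_pow] at hne
    by_cases hk : k = wind i j
    · subst hk
      exact hT a ha
    · rw [if_neg hk] at hne
      exact absurd rfl hne
  · rw [if_neg h1, Polynomial.coeff_zero, add_zero] at hne
    by_cases hxy : x = y
    · subst hxy
      rw [if_pos rfl, Polynomial.coeff_one] at hne
      by_cases hk : k = 0
      · subst hk; omega
      · rw [if_neg hk] at hne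
        exact absurd rfl hne
    · rw [if_neg hxy, Polynomial.coeff_zero] at hne
      exact absurd rfl hne

/-- The entries of an element of a finite stabiliser. -/
theorem entry_eq_zero_or {T : Finset (Fin n)} (hT : T.Nonempty) {g : ↥(U n p)}
    (hg : g ∈ K n p T) (i j : Fin n) :
    (i = j → g.1.1 i j = 1) ∧
      (i ≠ j → g.1.1 i j = C ((g.1.1 i j).coeff (wind i j)) * X ^ wind i j ∧
        ((g.1.1 i j).coeff (wind i j) ≠ 0 → ∀ a ∈ T, Allowed a i j)) := by
  obtain ⟨b, hb⟩ := hT
  constructor
  · rintro rfl
    refine Polynomial.ext fun k => ?_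
    rcases Nat.eq_zero_or_pos k with rfl | hk
    · rw [(coeff_zero_of_mem_U g i i).2 rfl, Polynomial.coeff_one_zero]
    · rw [Polynomial.coeff_one, if_neg hk.ne']
      by_contra hne
      have := hg b hb i i k hne
      split_ifs at this <;> omega
  · intro hij
    refine ⟨Polynomial.ext fun k => ?_, fun hne a ha => hg a ha i j _ hne⟩
    rw [Polynomial.coeff_C_mul_X_pow]
    split_ifs with hk
    · rw [hk]
    · by_contra hne
      have h1 := hg b hb i j k hne
      have h0 : k = 0 → i < j → False := fun hk0 hlt =>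
        hne (by subst hk0; exact (coeff_zero_of_mem_U g i j).1 hlt)
      unfold wind at hk
      simp only [Fin.lt_def] at hk h1 h0
      have hij' : (i : ℕ) ≠ j := fun e => hij (Fin.ext e)
      by_cases hk0 : k = 0
      · subst hk0
        split_ifs at hk with h2
        · exact h0 rfl h2
        · exact hk rfl
      · split_ifs at hk h1 <;> omega

/-- Two positions which compose. -/
def Splits (i m j : Fin n) : Prop :=
  i ≠ m ∧ m ≠ j ∧ wind i m + wind m j = wind i j ∧ ¬ Allowed m i j ∧ Allowed m i m

theorem split_succ {i j : Fin n} (hij : i ≠ j) {t t' : Fin n} (htt : t ≠ t')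
    (ht : ¬ Allowed t i j) (ht' : ¬ Allowed t' i j) (hjn : (j : ℕ) + 1 < n) :
    Splits i ⟨j + 1, hjn⟩ j := by
  have hi := i.isLt
  have hj := j.isLt
  simp only [Splits, Allowed, wind, ne_eq, Fin.ext_iff, Fin.lt_def] at hij htt ht ht' ⊢
  refine ⟨?_, by omega, ?_, ?_, ?_⟩
  · intro h; split_ifs at ht ht' <;> omega
  · clear ht'
    split_ifs at ht ⊢ <;> omega
  · clear ht'
    split_ifs at ht ⊢ <;> omega
  · clear ht'
    split_ifs at ht ⊢ <;> omega

theorem split_zero {i j : Fin n} (hij : i ≠ j) {t t' : Fin n} (htt : t ≠ t')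
    (ht : ¬ Allowed t i j) (ht' : ¬ Allowed t' i j) (hjn : ¬ (j : ℕ) + 1 < n) (h0 : 0 < n) :
    Splits i ⟨0, h0⟩ j := by
  have hi := i.isLt
  have hj := j.isLt
  have := t.isLt
  have := t'.isLt
  simp only [Splits, Allowed, wind, ne_eq, Fin.ext_iff, Fin.lt_def] at hij htt ht ht' ⊢
  refine ⟨?_, by omega, ?_, ?_, ?_⟩
  · intro h; split_ifs at ht ht' <;> omega
  · clear ht'
    split_ifs at ht ⊢ <;> omega
  · clear ht'
    split_ifs at ht ⊢ <;> omega
  · clear ht'
    split_ifs at ht ⊢ <;> omega

theorem allowed_second {m j a : Fin n} (h : (m : ℕ) = (j : ℕ) + 1 ∨ (j : ℕ) + 1 = n ∧ (m : ℕ) = 0)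
    (ha : a ≠ m) : Allowed a m j := by
  have hm := m.isLt
  have hj := j.isLt
  have := a.isLt
  simp only [Allowed, wind, ne_eq, Fin.ext_iff, Fin.lt_def] at ha ⊢
  split_ifs <;> omega

theorem allowed_first {i m j a : Fin n}
    (h : (m : ℕ) = (j : ℕ) + 1 ∨ (j : ℕ) + 1 = n ∧ (m : ℕ) = 0) (him : i ≠ m) (hij : i ≠ j)
    (ha : Allowed a i j) : Allowed a i m := by
  have hm := m.isLt
  have hj := j.isLt
  have := a.isLt
  simp only [Allowed, wind, ne_eq, Fin.ext_iff, Fin.lt_def] at ha him hij ⊢
  split_ifs at ha ⊢ <;> omega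

theorem allowed_split {i j : Fin n} (hij : i ≠ j) {t t' : Fin n} (htt : t ≠ t')
    (ht : ¬ Allowed t i j) (ht' : ¬ Allowed t' i j) :
    ∃ m : Fin n, i ≠ m ∧ m ≠ j ∧ wind i m + wind m j = wind i j ∧ ¬ Allowed m i j ∧
      Allowed m i m ∧ (∀ a, a ≠ m → Allowed a m j) ∧
      ∀ a, Allowed a i j → Allowed a i m ∧ Allowed a m j := by
  have main : ∀ m : Fin n, ((m : ℕ) = (j : ℕ) + 1 ∨ (j : ℕ) + 1 = n ∧ (m : ℕ) = 0) →
      Splits i m j → ∃ m : Fin n, i ≠ m ∧ m ≠ j ∧ wind i m + wind m j = wind i j ∧
        ¬ Allowed m i j ∧ Allowed m i m ∧ (∀ a, a ≠ m → Allowed a m j) ∧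
        ∀ a, Allowed a i j → Allowed a i m ∧ Allowed a m j := by
    rintro m h ⟨h1, h2, h3, h4, h5⟩
    exact ⟨m, h1, h2, h3, h4, h5, fun a ha => allowed_second h ha,
      fun a ha => ⟨allowed_first h h1 hij ha, allowed_second h fun e => h4 (e ▸ ha)⟩⟩
  by_cases hjn : (j : ℕ) + 1 < n
  · exact main _ (Or.inl rfl) (split_succ hij htt ht ht' hjn)
  · have hj := j.isLt
    exact main _ (Or.inr ⟨by omega, rfl⟩) (split_zero hij htt ht ht' hjn (by omega))

theorem commutator_of_square_zero {R : Type*} [Ring R] {A B : R} (hA : A * A = 0) (hB : B * B = 0)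
    (hBA : B * A = 0) : (1 + A) * (1 + B) * (1 + -A) * (1 + -B) = 1 + A * B := by
  have h1 : (1 + A) * (1 + B) * (1 + -A) = 1 + B + A * B := by
    simp only [add_mul, mul_add, one_mul, mul_one, mul_neg, mul_assoc, hA, hBA, mul_zero,
      add_zero]
    abel
  rw [h1]
  simp only [add_mul, mul_add, one_mul, mul_one, mul_neg, mul_assoc, hB, mul_zero,
    add_zero]
  abel

theorem commutator_rootElt {i m j : Fin n} (him : i ≠ m) (hmj : m ≠ j) (hij : i ≠ j)
    (hw : wind i m + wind m j = wind i j) (c : ZMod p) :
    rootElt him c * rootElt hmj 1 * rootElt him (-c) * rootElt hmj (-1) = rootElt hij c := by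
  refine Subtype.ext (Subtype.ext ?_)
  simp only [Subgroup.coe_mul, Matrix.SpecialLinearGroup.coe_mul, rootElt_apply, ← hw, map_neg,
    neg_mul, ← Matrix.single_neg]
  rw [commutator_of_square_zero (Matrix.single_mul_single_of_ne _ _ _ _ him.symm _)
    (Matrix.single_mul_single_of_ne _ _ _ _ hmj.symm _)
    (Matrix.single_mul_single_of_ne _ _ _ _ hij.symm _), Matrix.single_mul_single_same, map_one,
    one_mul, mul_assoc, ← pow_add]

/-- The subgroup generated by the stabilisers of the type sets one larger than `S`. -/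
noncomputable def genSub (n p : ℕ) [Fact p.Prime] (S : Finset (Fin n)) : Subgroup ↥(U n p) :=
  ⨆ t, ⨆ (_ : t ∉ S), K n p (insert t S)

theorem rootElt_mem_genSub {S : Finset (Fin n)} (hS3 : S.card + 3 ≤ n) {i j : Fin n} (hij : i ≠ j)
    (hA : ∀ a ∈ S, Allowed a i j) (c : ZMod p) : rootElt hij c ∈ genSub n p S := by
  classical
  have hmem : ∀ t, t ∉ S → K n p (insert t S) ≤ genSub n p S :=
    fun t ht => le_iSup₂ (f := fun t (_ : t ∉ S) => K n p (insert t S)) t ht
  have hdirect : ∀ (t x y : Fin n) (hxy : x ≠ y) (c : ZMod p), t ∉ S → Allowed t x y →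
      (∀ a ∈ S, Allowed a x y) → rootElt hxy c ∈ genSub n p S := by
    intro t x y hxy c ht h1 h2
    refine hmem t ht (rootElt_mem_K hxy c fun a ha => ?_)
    rcases Finset.mem_insert.1 ha with rfl | ha
    · exact h1
    · exact h2 a ha
  by_cases hex : ∃ t, t ∉ S ∧ Allowed t i j
  · obtain ⟨t, ht, h1⟩ := hex
    exact hdirect t i j hij c ht h1 hA
  · push Not at hex
    have hcard : 2 < (Sᶜ).card := by
      rw [Finset.card_compl, Fintype.card_fin]
      omega
    obtain ⟨t, t', u, ht, ht', hu, htt, htu, htu'⟩ := Finset.two_lt_card_iff.1 hcard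
    rw [Finset.mem_compl] at ht ht' hu
    obtain ⟨m, him, hmj, hw, hmA, hmm, hother, hsplit⟩ :=
      allowed_split hij htt (hex t ht) (hex t' ht')
    have hmS : m ∉ S := fun hm => hmA (hA m hm)
    obtain ⟨v, hv, hvm⟩ : ∃ v, v ∉ S ∧ v ≠ m := by
      by_cases h : t = m
      · exact ⟨t', ht', fun e => htt (h.trans e.symm)⟩
      · exact ⟨t, ht, h⟩
    rw [← commutator_rootElt him hmj hij hw c]
    refine mul_mem (mul_mem (mul_mem ?_ ?_) ?_) ?_
    · exact hdirect m i m him c hmS hmm fun a ha => (hsplit a (hA a ha)).1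
    · exact hdirect v m j hmj 1 hv (hother v hvm) fun a ha => (hsplit a (hA a ha)).2
    · exact hdirect m i m him _ hmS hmm fun a ha => (hsplit a (hA a ha)).1
    · exact hdirect v m j hmj _ hv (hother v hvm) fun a ha => (hsplit a (hA a ha)).2

theorem height_add {i j l : Fin n} (hij : i ≠ j) (hjl : j ≠ l)
    (hw : wind i j + wind j l = wind i l) :
    height i l = height i j + height j l ∧ 0 < height j l := by
  have hij' : (i : ℕ) ≠ j := fun e => hij (Fin.ext e)
  have hjl' : (j : ℕ) ≠ l := fun e => hjl (Fin.ext e)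
  have hi := i.isLt
  have hj := j.isLt
  have hl := l.isLt
  simp only [wind, height, Fin.lt_def] at hw ⊢
  split_ifs at hw ⊢ <;> omega

theorem height_lt (i j : Fin n) : height i j < n + n := by
  have hi := i.isLt
  simp only [height, wind]
  split_ifs <;> omega

theorem K_le_genSub {S : Finset (Fin n)} (hS : S.Nonempty) (hS3 : S.card + 3 ≤ n) :
    K n p S ≤ genSub n p S := by
  classical
  suffices key : ∀ r h N : ℕ, h + r = n + n → ∀ g ∈ K n p S,
      (∀ i j, i ≠ j → height i j < h → g.1.1 i j = 0) →
      (Finset.univ.filter fun a : Fin n × Fin n =>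
        a.1 ≠ a.2 ∧ height a.1 a.2 = h ∧ g.1.1 a.1 a.2 ≠ 0).card = N →
      g ∈ genSub n p S by
    intro g hg
    exact key (n + n) 0 _ (zero_add _) g hg (fun i j _ h => absurd h (Nat.not_lt_zero _)) rfl
  intro r
  induction r with
  | zero =>
    intro h N hh g hg hlow _
    have : g = 1 := by
      refine Subtype.ext (Matrix.SpecialLinearGroup.ext (A := g.1) (B := 1) fun i j => ?_)
      rw [Matrix.SpecialLinearGroup.coe_one]
      by_cases hij : i = j
      · rw [(entry_eq_zero_or hS hg i j).1 hij, hij, Matrix.one_apply_eq]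
      · rw [hlow i j hij (by have := height_lt i j; omega), Matrix.one_apply_ne hij]
    rw [this]
    exact one_mem _
  | succ r ih =>
    intro h N
    induction N using Nat.strong_induction_on with
    | _ N ihN =>
      intro hh g hg hlow hN
      set P := Finset.univ.filter fun a : Fin n × Fin n =>
        a.1 ≠ a.2 ∧ height a.1 a.2 = h ∧ g.1.1 a.1 a.2 ≠ 0 with hP
      rcases P.eq_empty_or_nonempty with hP0 | ⟨⟨i, j⟩, hij⟩
      · refine ih (h + 1) _ (by omega) g hg (fun i j hij hlt => ?_) rfl
        rcases Nat.lt_succ_iff_lt_or_eq.1 hlt with hlt | hlt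
        · exact hlow i j hij hlt
        · by_contra hne
          exact Finset.notMem_empty (i, j)
            (hP0 ▸ Finset.mem_filter.2 ⟨Finset.mem_univ _, hij, hlt, hne⟩)
      · simp only [hP, Finset.mem_filter, Finset.mem_univ, true_and] at hij
        obtain ⟨hne, hht, hval⟩ := hij
        obtain ⟨hform, hall⟩ := (entry_eq_zero_or hS hg i j).2 hne
        set c := (g.1.1 i j).coeff (wind i j) with hc
        have hc0 : c ≠ 0 := fun h0 => hval (by rw [hform, h0, map_zero, zero_mul])
        have hroot := rootElt_mem_K (p := p) hne (-c) (hall hc0)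
        set g' := rootElt hne (-c) * g with hg'
        have hg'K : g' ∈ K n p S := mul_mem hroot hg
        have hentry : ∀ a b, g'.1.1 a b =
            g.1.1 a b + if a = i then C (-c) * X ^ wind i j * g.1.1 j b else 0 := by
          intro a b
          simp only [hg', Subgroup.coe_mul, Matrix.SpecialLinearGroup.coe_mul, rootElt_apply,
            add_mul, one_mul, Matrix.add_apply]
          congr 1
          split_ifs with ha
          · subst ha; rw [Matrix.single_mul_apply_same]
          · rw [Matrix.single_mul_apply_of_ne (h := ha)]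
        have hkill : g'.1.1 i j = 0 := by
          rw [hentry, if_pos rfl, (entry_eq_zero_or hS hg j j).1 rfl, mul_one, hform, map_neg,
            neg_mul]
          exact add_neg_cancel _
        have hsame : ∀ a b, a ≠ b → height a b ≤ h → (a, b) ≠ (i, j) →
            g'.1.1 a b = g.1.1 a b := by
          intro a b hab hb hne'
          rw [hentry]
          split_ifs with ha
          · subst ha
            have hbj : j ≠ b := fun e => hne' (by rw [e])
            obtain ⟨hf', -⟩ := (entry_eq_zero_or hS hg j b).2 hbj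
            by_cases h0 : (g.1.1 j b).coeff (wind j b) = 0
            · rw [hf', h0, map_zero, zero_mul, mul_zero, add_zero]
            · have h1 : ∀ k, k ≠ wind a b → (g'.1.1 a b).coeff k = 0 ∧ (g.1.1 a b).coeff k = 0 := by
                intro k hk
                constructor
                · rw [((entry_eq_zero_or hS hg'K a b).2 hab).1, Polynomial.coeff_C_mul_X_pow,
                    if_neg hk]
                · rw [((entry_eq_zero_or hS hg a b).2 hab).1, Polynomial.coeff_C_mul_X_pow,
                    if_neg hk]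
              by_cases hw : wind a j + wind j b = wind a b
              · exfalso
                obtain ⟨hadd, -⟩ := height_add hne hbj hw
                refine h0 ?_
                rw [hlow j b hbj ?_, Polynomial.coeff_zero]
                by_contra hcon
                have : 0 < height j b := (height_add hne hbj hw).2
                omega
              · exfalso
                obtain ⟨u1, u2⟩ := h1 _ hw
                rw [hentry, if_pos rfl, Polynomial.coeff_add, u2, zero_add, hf',
                  mul_mul_mul_comm, ← C_mul, ← pow_add, Polynomial.coeff_C_mul_X_pow,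
                  if_pos rfl] at u1
                exact mul_ne_zero (neg_ne_zero.2 hc0) h0 u1
          · rw [add_zero]
        have hlow' : ∀ a b, a ≠ b → height a b < h → g'.1.1 a b = 0 := by
          intro a b hab hlt
          rw [hsame a b hab hlt.le (fun e => by cases e; omega)]
          exact hlow a b hab hlt
        have hlt : (Finset.univ.filter fun a : Fin n × Fin n =>
            a.1 ≠ a.2 ∧ height a.1 a.2 = h ∧ g'.1.1 a.1 a.2 ≠ 0).card < N := by
          rw [← hN]
          refine Finset.card_lt_card ⟨fun a ha => ?_, fun hsub => ?_⟩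
          · simp only [Finset.mem_filter, Finset.mem_univ, true_and, hP] at ha ⊢
            obtain ⟨h1, h2, h3⟩ := ha
            refine ⟨h1, h2, ?_⟩
            rw [← hsame a.1 a.2 h1 h2.le (fun e => h3 (by cases e; exact hkill))]
            exact h3
          · have := hsub (show (i, j) ∈ P from
              Finset.mem_filter.2 ⟨Finset.mem_univ _, hne, hht, hval⟩)
            exact (Finset.mem_filter.1 this).2.2.2 hkill
        have hmem := ihN _ hlt hh g' hg'K hlow' rfl
        have : g = (rootElt hne (-c))⁻¹ * g' := by rw [hg', inv_mul_cancel_left]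
        rw [this]
        exact mul_mem (inv_mem (rootElt_mem_genSub hS3 hne (hall hc0) _)) hmem

/-- Generation in the finite complexes. -/
theorem Kq_le_iSup {s : ℕ} {S : Finset (Fin n)} (hS : S.Nonempty) (hS3 : S.card + 3 ≤ n) :
    Kq n p s S ≤ ⨆ t, ⨆ (_ : t ∉ S), Kq n p s (insert t S) := by
  refine (Subgroup.map_mono (K_le_genSub hS hS3)).trans ?_
  simp only [genSub, Subgroup.map_iSup]
  exact le_rfl

end Vale.Agent.P067
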