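import Vale.Agent.P067.Alg.Glue
import Vale.Agent.P067.Z.Final
import Vale.Agent.P067.Z.Bridge
import Vale.Agent.P067.Link.Reduce
import Vale.Agent.P067.Rank2.RankTwo
import Vale.Agent.P067.Coh.Vanish

/-! The answer from the acyclicity of opposition complexes and the vanishing module. -/

namespace Vale.Agent.P067

open Finset

theorem residueContract_of_opp (hopp : OppStatement) : ResidueContractStatement := by
  intro n
  obtain ⟨C, P, h⟩ := residue_contract hopp bridge_ok n
  refine ⟨C, P, fun p hp hP S hS => ?_⟩
  have hrel : (fun U (x y : ↥(K n p S)) =>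
      cosetRel (fun T => (K n p T).subgroupOf (K n p S)) (S ∪ U) x y) =
      cosetRel fun T => (K n p T).subgroupOf (K n p S) := by
    funext U x y
    refine propext ?_
    show x⁻¹ * y ∈ (K n p (S ∪ U)).subgroupOf (K n p S) ↔ x⁻¹ * y ∈ (K n p U).subgroupOf (K n p S)
    rw [Subgroup.mem_subgroupOf, Subgroup.mem_subgroupOf]
    refine ⟨fun hk => K_anti subset_union_right hk, fun hk a ha => ?_⟩
    rcases mem_union.1 ha with ha | ha
    · exact (x⁻¹ * y).2 a ha
    · exact hk a ha
  rw [hrel]
  exact h p hp hP S hS

/-- The answer from the acyclicity of opposition complexes. -/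
theorem main_of_opp (hopp : OppStatement) : MainStatement :=
  main_of_parts (Coh.vanish_of_z (zStatement_of hopp bridge_ok))
    (linkStatement_of_contract (residueContract_of_opp hopp)) rankTwo_ok

end Vale.Agent.P067
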