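import Vale.Agent.P067.Alg.Gen
import Vale.Agent.P067.Final
import Vale.Agent.P067.Co.Interface

/-! The residues of the finite complexes are connected. -/

open Matrix Polynomial Finset

namespace Vale.Agent.P067

noncomputable section

variable {n p : ℕ} [Fact p.Prime]

/-- The finite complexes have connected residues, given their connectedness. -/
theorem conn_Kq {s : ℕ} [Fintype (Omega n p s)]
    (hA : Acyclic (cosetRel (Kq n p s)) 1) : Co.Conn (cosetRel (Kq n p s)) := by
  classical
  refine Co.conn_cosetRel _ fun S hS => ?_
  rw [Fintype.card_fin] at hS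
  rcases S.eq_empty_or_nonempty with rfl | hne
  · intro g _
    set H : Subgroup (Omega n p s) := ⨆ t, ⨆ (_ : t ∉ (∅ : Finset (Fin n))), Kq n p s (insert t ∅)
    set h : Finset (Fin n) → Omega n p s → ZMod 2 :=
      fun T x => if T.card = 1 ∧ x ∈ H then 1 else 0 with hh
    have hc : IsCochain (cosetRel (Kq n p s)) 1 h := by
      refine ⟨fun T x hT => if_neg fun h' => hT h'.1, fun T x y hxy => ?_⟩
      by_cases hT : T.card = 1
      · obtain ⟨t, rfl⟩ := card_eq_one.1 hT
        have hmem : x⁻¹ * y ∈ H := Subgroup.mem_iSup_of_mem t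
          (Subgroup.mem_iSup_of_mem (notMem_empty t) (by simpa [cosetRel] using hxy))
        have : x ∈ H ↔ y ∈ H := by
          rw [← Subgroup.mul_mem_cancel_right H hmem (y := x), mul_inv_cancel_left]
        simp only [hh, this]
      · simp only [hh, hT, false_and, if_false]
    have hd : delta h = 0 := by
      funext T x
      by_cases hT : T.card = 2
      · have : ∀ t ∈ T, h (T.erase t) x = if x ∈ H then 1 else 0 := fun t ht => by
          simp only [hh, card_erase_of_mem ht, hT, true_and]
        simp only [delta, sum_congr rfl this, sum_const, hT, Pi.zero_apply, two_smul]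
        exact CharTwo.add_self_eq_zero _
      · refine sum_eq_zero fun t ht => if_neg fun h' => hT ?_
        rw [← card_erase_add_one ht, h'.1]
    obtain ⟨v, hv, hvh⟩ := hA h hc hd
    have ht0 : (0 : ℕ) < n := by omega
    set t0 : Fin n := ⟨0, ht0⟩
    have hval : ∀ x, h {t0} x = v ∅ x := fun x => by
      rw [← hvh]; simp [delta]
    have hconst : v ∅ 1 = v ∅ g := hv.2 ∅ 1 g (by
      show (1 : Omega n p s)⁻¹ * g ∈ Kq n p s ∅
      rw [Kq_empty]; exact Subgroup.mem_top _)
    by_contra hg
    have h1 := hval 1
    have h2 := hval g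
    rw [hconst, ← h2] at h1
    simp [hh, one_mem, hg] at h1
  · exact Kq_le_iSup hne hS

end

end Vale.Agent.P067
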