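import Vale.Agent.P067.Alg.Quot
import Vale.Agent.P067.Co.Expand

/-! Expansion of the finite complexes from vanishing of cohomology, link expansion and the
spectral gaps of the links. -/

namespace Vale.Agent.P067

open Finset

variable {n p : ℕ} [Fact p.Prime]

/-- The finite complex of level `s` as a chamber system. -/
noncomputable def sysq (n p s : ℕ) [Fact p.Prime] [Fintype (Omega n p s)] :
    Co.Sys (Fin n) (Omega n p s) where
  cls T x := (Set.toFinite {y | cosetRel (Kq n p s) T x y}).toFinset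
  self T x := by
    rw [Set.Finite.mem_toFinset]
    show x⁻¹ * x ∈ Kq n p s T
    rw [inv_mul_cancel]
    exact one_mem _
  eq_of_mem T x y hy := by
    rw [Set.Finite.mem_toFinset] at hy
    ext z
    rw [Set.Finite.mem_toFinset, Set.Finite.mem_toFinset]
    show y⁻¹ * z ∈ Kq n p s T ↔ x⁻¹ * z ∈ Kq n p s T
    have h : y⁻¹ * z = (x⁻¹ * y)⁻¹ * (x⁻¹ * z) := by
      rw [mul_inv_rev, inv_inv, mul_assoc, mul_inv_cancel_left]
    rw [h]
    exact Subgroup.mul_mem_cancel_left _ (inv_mem hy)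
  mono S T x h y hy := by
    rw [Set.Finite.mem_toFinset] at hy ⊢
    exact Kq_anti h hy
  empty x := by
    ext y
    rw [Set.Finite.mem_toFinset]
    refine iff_of_true ?_ (mem_univ y)
    show x⁻¹ * y ∈ Kq n p s ∅
    rw [Kq_empty]
    exact Subgroup.mem_top _

theorem mem_sysq_cls {s : ℕ} [Fintype (Omega n p s)] {T : Finset (Fin n)} {x y : Omega n p s} :
    y ∈ (sysq n p s).cls T x ↔ cosetRel (Kq n p s) T x y := by
  simp [sysq]

theorem sysq_isCochain {s : ℕ} [Fintype (Omega n p s)] {m : ℕ}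
    {f : Finset (Fin n) → Omega n p s → ZMod 2} :
    (sysq n p s).IsCochain m f ↔ IsCochain (cosetRel (Kq n p s)) m f :=
  ⟨fun h => ⟨h.1, fun T x y hxy => (h.2 T x y (mem_sysq_cls.2 hxy)).symm⟩,
    fun h => ⟨h.1, fun T x y hxy => (h.2 T x y (mem_sysq_cls.1 hxy)).symm⟩⟩

theorem dd_eq_delta {ι Ω : Type*} [Fintype ι] [DecidableEq ι] [Fintype Ω] [DecidableEq Ω]
    (f : Finset ι → Ω → ZMod 2) : Co.dd f = delta f := rfl

theorem wt_eq_mass {ι Ω : Type*} [Fintype ι] [DecidableEq ι] [Fintype Ω] [DecidableEq Ω]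
    (f : Finset ι → Ω → ZMod 2) : Co.wt f = (mass f : ℝ) := by
  rw [Co.wt, mass, ← Set.ncard_coe_finset, Co.supp, coe_filter]
  simp

/-- The interface with the spectral module: small spectral error in all links, for large primes,
uniformly in the level. -/
def SpecQStatement : Prop :=
  ∀ d : ℕ, ∃ n0 : ℕ, ∀ n : ℕ, n0 ≤ n → ∀ lam : ℝ, 0 < lam →
    ∃ P : ℕ, ∀ p : ℕ, ∀ _ : Fact p.Prime, P ≤ p → ∀ s : ℕ, 3 ≤ s →
      ∀ _ : Fintype (Omega n p s), ∀ _ : DecidableEq (Omega n p s),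
        (sysq n p s).Spec (d + 1) lam

theorem spec_mono {ι Ω : Type*} [Fintype ι] [DecidableEq ι] [Fintype Ω] [DecidableEq Ω]
    {X : Co.Sys ι Ω} {a b : ℕ} {lam lam' : ℝ} (h : X.Spec b lam) (hab : a ≤ b)
    (hl : lam ≤ lam') : X.Spec a lam' :=
  fun S x B hS h1 h2 => (h S x B (lt_of_lt_of_le hS hab) h1 h2).trans
    (by gcongr)

/-- Expansion in the chamber language up to cochains on `d` element type sets. -/
theorem expands_of_modules {d C : ℕ} {s : ℕ} [Fintype (Omega n p s)] [DecidableEq (Omega n p s)]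
    (hA : ∀ m : ℕ, 1 ≤ m → m ≤ d → Acyclic (cosetRel (Kq n p s)) m)
    (hL : LinkQ n p s d C)
    (hS : ∀ i < d, (sysq n p s).Spec (i + 2) (Co.gap n (i + 2) C)) :
    ∀ i < d, ∀ f, IsCochain (cosetRel (Kq n p s)) (i + 1) f →
      ∃ g, IsCochain (cosetRel (Kq n p s)) i g ∧ mass (f + delta g) ≤
        (∑ j ∈ range d, ⌈1 / Co.rate n (j + 2) C (sizeBound n p)⌉₊) * mass (delta f) := by
  intro i hi f hf
  have hlink : (sysq n p s).Link (i + 2) C (sizeBound n p) := by
    intro S hSne h hh hsup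
    have hab : Above S h := fun T x hT => by
      by_contra hne
      exact hT (hsup T x hne)
    obtain ⟨v, h1, -, h3, h4⟩ := hL S hSne (i + 2) (by omega) h (sysq_isCochain.1 hh) hab
    refine ⟨v, sysq_isCochain.2 h1, ?_, ?_⟩
    · rw [wt_eq_mass, wt_eq_mass]
      exact_mod_cast h3
    · rw [wt_eq_mass, wt_eq_mass, dd_eq_delta, dd_eq_delta]
      exact_mod_cast h4
  obtain ⟨b, hb, hb0, hineq⟩ := Co.Sys.expansion (Fintype.card_fin n) (hS i hi) hlink
    (sysq_isCochain.2 hf)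
  obtain ⟨g, hg, rfl⟩ := hA (i + 1) (by omega) (by omega) b (sysq_isCochain.1 hb) hb0
  refine ⟨g, by simpa using hg, ?_⟩
  have hr : 0 < Co.rate n (i + 2) C (sizeBound n p) := Co.rate_pos _ _ _ _
  rw [wt_eq_mass, wt_eq_mass, dd_eq_delta] at hineq
  have h1 : (mass (f + delta g) : ℝ) ≤
      (1 / Co.rate n (i + 2) C (sizeBound n p)) * mass (delta f) := by
    rw [one_div_mul_eq_div, le_div_iff₀ hr, mul_comm]
    exact hineq
  have h2 : 1 / Co.rate n (i + 2) C (sizeBound n p) ≤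
      ((∑ j ∈ range d, ⌈1 / Co.rate n (j + 2) C (sizeBound n p)⌉₊ : ℕ) : ℝ) := by
    refine (Nat.le_ceil _).trans (Nat.cast_le.2 ?_)
    exact single_le_sum (f := fun j => ⌈1 / Co.rate n (j + 2) C (sizeBound n p)⌉₊)
      (fun _ _ => Nat.zero_le _) (mem_range.2 hi)
  exact_mod_cast h1.trans (mul_le_mul_of_nonneg_right h2 (Nat.cast_nonneg _))

theorem ncard_class_le {s : ℕ} (t : Fin n) (x : Omega n p s) :
    {y | cosetRel (Kq n p s) {t} x y}.ncard ≤ sizeBound n p := by
  have hfin := finite_K (n := n) (p := p) (singleton_nonempty t)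
  have hsub : {y | cosetRel (Kq n p s) {t} x y} ⊆
      Set.range fun k : ↥(K n p {t}) => x * (QuotientGroup.mk (k : ↥(U n p)) : Omega n p s) := by
    intro y hy
    obtain ⟨k, hk, he⟩ := mem_Kq.1 hy
    exact ⟨⟨k, hk⟩, by simp only; rw [he, mul_inv_cancel_left]⟩
  refine le_trans (Set.ncard_le_ncard hsub) ?_
  rw [← Nat.card_coe_set_eq]
  refine (Finite.card_range_le _).trans ?_
  exact le_trans (Nat.le_mul_of_pos_left _ (by positivity)) (card_K_le_sizeBound {t})

/-- The family of finite complexes: chamber systems with bounded classes, arbitrarily many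
chambers and uniform expansion. -/
theorem family_of_modules (hA : VanishStatement) (hL : LinkStatement) (hS : SpecQStatement)
    (d : ℕ) : ∃ n p : ℕ, ∃ _ : Fact p.Prime, d + 1 ≤ n ∧ ∃ C : ℕ, ∀ M : ℕ, ∃ s : ℕ, 3 ≤ s ∧
      M ≤ Nat.card (Omega n p s) ∧
      ∀ i < d, ∀ f, IsCochain (cosetRel (Kq n p s)) (i + 1) f →
        ∃ g, IsCochain (cosetRel (Kq n p s)) i g ∧
          mass (f + delta g) ≤ C * mass (delta f) := by
  classical
  obtain ⟨nA, hA⟩ := hA d
  obtain ⟨nL, hL⟩ := linkQ_of_statement hL d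
  obtain ⟨nS, hS⟩ := hS d
  obtain ⟨n, hn1, hn2, hn3, hn4⟩ : ∃ n, nA ≤ n ∧ nL ≤ n ∧ nS ≤ n ∧ d + 2 ≤ n :=
    ⟨nA + nL + nS + (d + 2), by omega, by omega, by omega, by omega⟩
  obtain ⟨PA, hA⟩ := hA n hn1
  obtain ⟨B, PL, hL⟩ := hL n hn2
  obtain ⟨lam, hlam, hle⟩ : ∃ lam : ℝ, 0 < lam ∧ ∀ i < d, lam ≤ Co.gap n (i + 2) B := by
    rcases (range d).eq_empty_or_nonempty with h0 | h0
    · refine ⟨1, one_pos, fun i hi => ?_⟩
      have := mem_range.2 hi
      rw [h0] at this
      exact absurd this (notMem_empty _)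
    · refine ⟨(range d).inf' h0 fun i => Co.gap n (i + 2) B, ?_, fun i hi => ?_⟩
      · exact (lt_inf'_iff h0).2 fun i _ => Co.gap_pos _ _ _
      · exact inf'_le (f := fun i => Co.gap n (i + 2) (B : ℝ)) (mem_range.2 hi)
  obtain ⟨PS, hS⟩ := hS n hn3 lam hlam
  obtain ⟨p, hp, hprime⟩ := Nat.exists_infinite_primes (PA + PL + PS)
  have hf : Fact p.Prime := ⟨hprime⟩
  refine ⟨n, p, hf, by omega, ∑ j ∈ range d, ⌈1 / Co.rate n (j + 2) B (sizeBound n p)⌉₊,
    fun M => ⟨M + 3, by omega, ?_, ?_⟩⟩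
  · have := le_card_Omega (p := p) (n := n) (by omega) (M + 3)
    omega
  · have : Fintype (Omega n p (M + 3)) := Fintype.ofFinite _
    refine expands_of_modules (fun m h1 h2 => hA p hf (by omega) (M + 3) (by omega) m h1 h2)
      (hL p hf (by omega) (M + 3) (by omega)) fun i hi => ?_
    exact spec_mono (hS p hf (by omega) (M + 3) (by omega) this inferInstance) (by omega) (hle i hi)

end Vale.Agent.P067
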