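import Vale.Agent.P067.Alg.Quot
import Vale.Agent.P067.Co.Interface

/-! The gap of the residues of rank two holds in the finite complexes. -/

namespace Vale.Agent.P067

open Finset

variable {n p : ℕ} [Fact p.Prime]

/-- The class of a chamber in the finite complex is a translate of the finite stabiliser. -/
theorem cl_eq_map {s : ℕ} (hs : 2 ≤ s) [Fintype (Omega n p s)] {S : Finset (Fin n)}
    (hS : S.Nonempty) [Fintype ↥(K n p S)] (x : Omega n p s) :
    Co.cl (cosetRel (Kq n p s)) S x =
      (univ : Finset ↥(K n p S)).map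
        ⟨fun k => residueEquiv hs hS (QuotientGroup.mk x, k),
          fun _ _ h => (Prod.ext_iff.1 ((residueEquiv hs hS).injective h)).2⟩ := by
  have hkey : ∀ (c : Omega n p s ⧸ Kq n p s S) (k : ↥(K n p S)),
      (QuotientGroup.mk (residueEquiv hs hS (c, k)) : Omega n p s ⧸ Kq n p s S) = c := by
    intro c k
    conv_rhs => rw [← QuotientGroup.out_eq' c]
    rw [residueEquiv_apply, QuotientGroup.eq, mul_inv_rev, mul_assoc, inv_mul_cancel, mul_one]
    exact inv_mem (mem_Kq.2 ⟨_, k.2, rfl⟩)
  ext y
  simp only [Co.mem_cl, cosetRel, mem_map, mem_univ, true_and]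
  rw [← QuotientGroup.eq]
  constructor
  · intro h
    refine ⟨((residueEquiv hs hS).symm y).2, ?_⟩
    have h1 : ((residueEquiv hs hS).symm y).1 = QuotientGroup.mk x := by
      rw [h, ← hkey ((residueEquiv hs hS).symm y).1 ((residueEquiv hs hS).symm y).2,
        Prod.mk.eta, Equiv.apply_symm_apply]
    show residueEquiv hs hS (QuotientGroup.mk x, ((residueEquiv hs hS).symm y).2) = y
    rw [← h1, Prod.mk.eta, Equiv.apply_symm_apply]
  · rintro ⟨k, rfl⟩
    show _ = QuotientGroup.mk (residueEquiv hs hS (QuotientGroup.mk x, k))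
    rw [hkey]

/-- The residues of rank two of the finite complexes have error at most `sqrt (1 / p)`. -/
theorem twoGap_of_rankTwo (hR : RankTwoStatement) (hn : 3 ≤ n) {s : ℕ} (hs : 2 ≤ s)
    [Fintype (Omega n p s)] : Co.TwoGap (cosetRel (Kq n p s)) (Real.sqrt (1 / p)) := by
  intro S hcard t u ht hu htu x f g hf hg
  rw [Fintype.card_fin] at hcard
  have hS : S.Nonempty := card_pos.1 (by omega)
  have := finite_K (p := p) hS
  have : Fintype ↥(K n p S) := Fintype.ofFinite _
  have hins : ∀ (v : Fin n) (φ : Omega n p s → ℝ),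
      (∀ y z, cosetRel (Kq n p s) (insert v S) y z → φ y = φ z) →
      ∀ k l : ↥(K n p S), k⁻¹ * l ∈ (K n p (insert v S)).subgroupOf (K n p S) →
        φ (residueEquiv hs hS (QuotientGroup.mk x, k)) =
          φ (residueEquiv hs hS (QuotientGroup.mk x, l)) :=
    fun v φ hφ k l hkl => hφ _ _ ((residue_mem_Kq hs hS (subset_insert v S) _ k l).2 hkl)
  have h := hR n hn p inferInstance S hcard t u ht hu htu inferInstance
    (fun k => f (residueEquiv hs hS (QuotientGroup.mk x, k)))
    (fun k => g (residueEquiv hs hS (QuotientGroup.mk x, k))) (hins t f hf) (hins u g hg)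
  rw [cl_eq_map hs hS x]
  simp only [sum_map, card_map, card_univ]
  exact h

end Vale.Agent.P067
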