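import Vale.Agent.P067.Alg.Family
import Vale.Agent.P067.Alg.RankQ
import Vale.Agent.P067.Alg.Conn
import Vale.Agent.P067.Co.Spec

/-! Small spectral error in all links of the finite complexes, from the residues of rank two. -/

namespace Vale.Agent.P067

open Finset

theorem specQ_of (hR : RankTwoStatement) (hV : VanishStatement) :
    SpecQStatement := by
  intro d
  obtain ⟨n0, hV⟩ := hV 1
  refine ⟨n0 + d + 3, fun n hn lam hlam => ?_⟩
  obtain ⟨PV, hV⟩ := hV n (by omega)
  have hpow : (0 : ℝ) < 3 ^ n := by positivity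
  obtain ⟨N, hN⟩ := exists_nat_gt ((3 ^ n / min lam 1) ^ 2)
  refine ⟨max PV (N + 1), fun p hp hP s hs hfin hdec => ?_⟩
  set ν := Real.sqrt (1 / (p : ℝ))
  have hν : 0 ≤ ν := Real.sqrt_nonneg _
  have hm : 0 < min lam 1 := lt_min hlam one_pos
  have hp0 : (0 : ℝ) < p := by exact_mod_cast hp.out.pos
  have hbound : 3 ^ n * ν ≤ min lam 1 := by
    rw [← le_div_iff₀' hpow, Real.sqrt_le_iff]
    refine ⟨by positivity, ?_⟩
    rw [div_pow] at hN ⊢
    have h1 : (N : ℝ) ≤ p := by exact_mod_cast (by omega : N ≤ p)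
    have h2 : (3 ^ n : ℝ) ^ 2 / min lam 1 ^ 2 ≤ p := hN.le.trans h1
    rw [div_le_iff₀ hp0]
    rw [div_le_iff₀ (by positivity)] at h2
    rw [div_mul_eq_mul_div, one_le_div (by positivity), mul_comm]
    exact h2
  have hconn := conn_Kq (hV p hp (by omega) s hs 1 le_rfl le_rfl)
  have h := Co.spec_of_twoGap (sysq n p s) (fun T x y => mem_sysq_cls) hconn hν
    (by rw [Fintype.card_fin]; exact hbound.trans (min_le_right _ _))
    (twoGap_of_rankTwo hR (by omega) (by omega)) (m := d + 1) (by rw [Fintype.card_fin]; omega)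
  rw [Fintype.card_fin] at h
  exact spec_mono h le_rfl (hbound.trans (min_le_left _ _))

end Vale.Agent.P067
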