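import Vale.Agent.P067.Alg.Assembly
import Vale.Agent.P067.Alg.SpecQ

/-! The construction from the vanishing, link and rank two modules. -/

namespace Vale.Agent.P067

/-- The answer to the question from the three modules. -/
theorem main_of_parts (hA : VanishStatement) (hL : LinkStatement) (hR : RankTwoStatement) :
    MainStatement :=
  main_of_specQ hA hL (specQ_of hR hA)

end Vale.Agent.P067
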