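import Vale.Agent.P067.Alg.Basic
import Vale.Agent.P067.Final

/-! The residue of a nonempty type set in the finite complex is the finite stabiliser, so
`LinkStatement` holds in the finite complexes with the same constant. -/

namespace Vale.Agent.P067

variable {n p : ℕ} [Fact p.Prime]

theorem mk_mem_Kq_iff {s : ℕ} (hs : 2 ≤ s) {S T : Finset (Fin n)} (hS : S.Nonempty)
    (hST : S ⊆ T) {k : ↥(U n p)} (hk : k ∈ K n p S) :
    (QuotientGroup.mk k : Omega n p s) ∈ Kq n p s T ↔ k ∈ K n p T := by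
  refine ⟨fun h => ?_, fun h => mem_Kq.2 ⟨k, h, rfl⟩⟩
  obtain ⟨k', hk', he⟩ := mem_Kq.1 h
  rw [← eq_of_quotient_eq hs (hS.mono hST) hS hk' hk he]
  exact hk'

/-- A chamber of the finite complex is a class of type `S` and an element of the stabiliser. -/
noncomputable def residueEquiv {s : ℕ} (hs : 2 ≤ s) {S : Finset (Fin n)} (hS : S.Nonempty) :
    (Omega n p s ⧸ Kq n p s S) × ↥(K n p S) ≃ Omega n p s :=
  Equiv.ofBijective
    (fun a => a.1.out * (QuotientGroup.mk (a.2 : ↥(U n p)) : Omega n p s))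
    ⟨fun a b hab => by
      have hc : a.1 = b.1 := by
        rw [← QuotientGroup.out_eq' a.1, ← QuotientGroup.out_eq' b.1, QuotientGroup.eq]
        have ha : (QuotientGroup.mk (a.2 : ↥(U n p)) : Omega n p s) ∈ Kq n p s S :=
          mem_Kq.2 ⟨_, a.2.2, rfl⟩
        have hb : (QuotientGroup.mk (b.2 : ↥(U n p)) : Omega n p s) ∈ Kq n p s S :=
          mem_Kq.2 ⟨_, b.2.2, rfl⟩
        have h1 : a.1.out⁻¹ * b.1.out =
            (QuotientGroup.mk (a.2 : ↥(U n p)) : Omega n p s) *
              (QuotientGroup.mk (b.2 : ↥(U n p)) : Omega n p s)⁻¹ := by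
          rw [eq_mul_inv_iff_mul_eq, mul_assoc, inv_mul_eq_iff_eq_mul]
          exact hab.symm
        rw [h1]
        exact mul_mem ha (inv_mem hb)
      refine Prod.ext hc (Subtype.ext (mk_injOn_K hs hS a.2.2 b.2.2 ?_))
      have h2 : a.1.out * (QuotientGroup.mk (a.2 : ↥(U n p)) : Omega n p s) =
          b.1.out * (QuotientGroup.mk (b.2 : ↥(U n p)) : Omega n p s) := hab
      rw [hc] at h2
      exact mul_left_cancel h2,
    fun x => by
      have h : (QuotientGroup.mk x : Omega n p s ⧸ Kq n p s S).out⁻¹ * x ∈ Kq n p s S :=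
        QuotientGroup.eq.1 (QuotientGroup.out_eq' _)
      obtain ⟨k, hk, he⟩ := mem_Kq.1 h
      exact ⟨(QuotientGroup.mk x, ⟨k, hk⟩), by simp only; rw [he, mul_inv_cancel_left]⟩⟩

theorem residueEquiv_apply {s : ℕ} (hs : 2 ≤ s) {S : Finset (Fin n)} (hS : S.Nonempty)
    (c : Omega n p s ⧸ Kq n p s S) (k : ↥(K n p S)) :
    residueEquiv hs hS (c, k) = c.out * (QuotientGroup.mk (k : ↥(U n p)) : Omega n p s) := rfl

theorem residue_mem_Kq {s : ℕ} (hs : 2 ≤ s) {S T : Finset (Fin n)} (hS : S.Nonempty)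
    (hST : S ⊆ T) (c : Omega n p s ⧸ Kq n p s S) (k l : ↥(K n p S)) :
    (residueEquiv hs hS (c, k))⁻¹ * residueEquiv hs hS (c, l) ∈ Kq n p s T ↔
      k⁻¹ * l ∈ (K n p T).subgroupOf (K n p S) := by
  have h : (residueEquiv hs hS (c, k))⁻¹ * residueEquiv hs hS (c, l) =
      (QuotientGroup.mk ((k⁻¹ * l : ↥(K n p S)) : ↥(U n p)) : Omega n p s) := by
    rw [residueEquiv_apply, residueEquiv_apply, mul_inv_rev, mul_assoc, inv_mul_cancel_left,
      Subgroup.coe_mul, Subgroup.coe_inv, QuotientGroup.mk_mul, QuotientGroup.mk_inv]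
  rw [h, Subgroup.mem_subgroupOf]
  exact mk_mem_Kq_iff hs hS hST (k⁻¹ * l).2

theorem mass_le_of_equiv {ι Q κ Ω : Type*} [Finite ι] [Finite Q] [Finite κ]
    (e : Q × κ ≃ Ω) (f g : Finset ι → Ω → ZMod 2) (C : ℕ)
    (h : ∀ c, mass (fun T k => f T (e (c, k))) ≤ C * mass (fun T k => g T (e (c, k)))) :
    mass f ≤ C * mass g := by
  have : Fintype Q := Fintype.ofFinite Q
  have key : ∀ u : Finset ι → Ω → ZMod 2,
      mass u = ∑ c, mass (fun T k => u T (e (c, k))) := by
    intro u
    unfold mass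
    simp only [← Nat.card_coe_set_eq]
    rw [← Nat.card_sigma]
    exact Nat.card_congr
      { toFun := fun a => ⟨(e.symm a.1.2).1, (a.1.1, (e.symm a.1.2).2),
          show u a.1.1 (e ((e.symm a.1.2).1, (e.symm a.1.2).2)) ≠ 0 by
            rw [Prod.mk.eta, Equiv.apply_symm_apply]; exact a.2⟩
        invFun := fun b => ⟨(b.2.1.1, e (b.1, b.2.1.2)), b.2.2⟩
        left_inv := fun a => Subtype.ext (Prod.ext rfl (by simp))
        right_inv := by
          rintro ⟨c, ⟨T, k⟩, hk⟩
          refine Sigma.subtype_ext (by simp) ?_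
          simp }
  rw [key f, key g, Finset.mul_sum]
  exact Finset.sum_le_sum fun c _ => h c

theorem mass_zero {ι Ω : Type*} : mass (0 : Finset ι → Ω → ZMod 2) = 0 := by
  simp [mass]

theorem mass_le_card {ι Ω : Type*} [Fintype ι] [Finite Ω] (f : Finset ι → Ω → ZMod 2) :
    mass f ≤ 2 ^ Fintype.card ι * Nat.card Ω := by
  refine (Set.ncard_le_card _).trans ?_
  rw [Nat.card_prod, Nat.card_eq_fintype_card, Fintype.card_finset]

theorem one_le_mass {ι Ω : Type*} [Finite ι] [Finite Ω] {f : Finset ι → Ω → ZMod 2} (hf : f ≠ 0) :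
    1 ≤ mass f := by
  refine (Set.ncard_pos).2 ?_
  by_contra h
  refine hf (funext fun T => funext fun x => ?_)
  by_contra hne
  exact h ⟨(T, x), hne⟩

/-- A bound on the number of pairs in a residue. -/
noncomputable def sizeBound (n p : ℕ) [Fact p.Prime] : ℕ :=
  ∑ S : Finset (Fin n), 2 ^ n * Nat.card ↥(K n p S)

theorem card_K_le_sizeBound (S : Finset (Fin n)) :
    2 ^ n * Nat.card ↥(K n p S) ≤ sizeBound n p :=
  Finset.single_le_sum (f := fun S => 2 ^ n * Nat.card ↥(K n p S)) (fun _ _ => Nat.zero_le _)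
    (Finset.mem_univ S)

/-- Link expansion in the finite complexes, with primitives of bounded relative size. -/
def LinkQ (n p s d C : ℕ) [Fact p.Prime] : Prop :=
  ∀ S : Finset (Fin n), S.Nonempty → ∀ m : ℕ, m ≤ d + 1 →
    ∀ h : Finset (Fin n) → Omega n p s → ZMod 2,
      IsCochain (cosetRel (Kq n p s)) m h → Above S h →
      ∃ g : Finset (Fin n) → Omega n p s → ZMod 2,
        IsCochain (cosetRel (Kq n p s)) (m - 1) g ∧ Above S g ∧
        mass g ≤ sizeBound n p * mass h ∧ mass (h + delta g) ≤ C * mass (delta h)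

theorem linkQ_of_link {d C : ℕ} {s : ℕ} (hs : 2 ≤ s)
    (hL : ∀ S : Finset (Fin n), S.Nonempty → ∀ m : ℕ, m ≤ d + 1 →
      ∀ h : Finset (Fin n) → ↥(K n p S) → ZMod 2,
        IsCochain (cosetRel fun T => (K n p T).subgroupOf (K n p S)) m h → Above S h →
        ∃ g : Finset (Fin n) → ↥(K n p S) → ZMod 2,
          IsCochain (cosetRel fun T => (K n p T).subgroupOf (K n p S)) (m - 1) g ∧
          Above S g ∧ mass (h + delta g) ≤ C * mass (delta h)) :
    LinkQ n p s d C := by
  intro S hS m hm h hh hab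
  set e := residueEquiv (p := p) hs hS with he
  have hloc : ∀ c, IsCochain (cosetRel fun T => (K n p T).subgroupOf (K n p S)) m
      (fun T k => h T (e (c, k))) := by
    refine fun c => ⟨fun T k hT => hh.1 T _ hT, fun T k l hkl => ?_⟩
    by_cases hST : S ⊆ T
    · exact hh.2 T _ _ ((residue_mem_Kq hs hS hST c k l).2 hkl)
    · simp only [hab T _ hST]
  have := finite_K (n := n) (p := p) hS
  have hex : ∀ c, ∃ g : Finset (Fin n) → ↥(K n p S) → ZMod 2,
      IsCochain (cosetRel fun T => (K n p T).subgroupOf (K n p S)) (m - 1) g ∧ Above S g ∧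
      mass ((fun T k => h T (e (c, k))) + delta g) ≤
        C * mass (delta fun T k => h T (e (c, k))) ∧
      mass g ≤ sizeBound n p * mass (fun T k => h T (e (c, k))) := by
    intro c
    by_cases h0 : (fun T k => h T (e (c, k))) = 0
    · refine ⟨0, ⟨fun _ _ _ => rfl, fun _ _ _ _ => rfl⟩, fun _ _ _ => rfl, ?_, by simp [mass_zero]⟩
      have hd : (fun T k => h T (e (c, k))) + delta (0 : Finset (Fin n) → ↥(K n p S) → ZMod 2) = 0 := by
        rw [h0]
        funext T k
        simp [delta]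
      rw [hd, mass_zero]
      exact Nat.zero_le _
    · obtain ⟨g, h1, h2, h3⟩ := hL S hS m hm _ (hloc c) (fun T k hT => hab T _ hT)
      refine ⟨g, h1, h2, h3, le_trans (le_trans (mass_le_card g) ?_)
        (le_mul_of_one_le_right (Nat.zero_le _) (one_le_mass h0))⟩
      rw [Fintype.card_fin]
      exact card_K_le_sizeBound S
  choose g hg1 hg2 hg3 hg4 using hex
  have happly : ∀ (T : Finset (Fin n)) (c : Omega n p s ⧸ Kq n p s S) (k : ↥(K n p S)),
      (fun T x => g (e.symm x).1 T (e.symm x).2) T (e (c, k)) = g c T k := by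
    intro T c k
    simp
  refine ⟨fun T x => g (e.symm x).1 T (e.symm x).2, ⟨fun T x hT => (hg1 _).1 T _ hT, ?_⟩,
    fun T x hT => hg2 _ T _ hT, ?_, ?_⟩
  · intro T x y hxy
    by_cases hST : S ⊆ T
    · obtain ⟨⟨c, k⟩, rfl⟩ := e.surjective x
      obtain ⟨⟨c', l⟩, rfl⟩ := e.surjective y
      have hc : c = c' := by
        have h1 := Kq_anti hST hxy
        have ha : (QuotientGroup.mk (k : ↥(U n p)) : Omega n p s) ∈ Kq n p s S :=
          mem_Kq.2 ⟨_, k.2, rfl⟩
        have hb : (QuotientGroup.mk (l : ↥(U n p)) : Omega n p s) ∈ Kq n p s S :=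
          mem_Kq.2 ⟨_, l.2, rfl⟩
        rw [← QuotientGroup.out_eq' c, ← QuotientGroup.out_eq' c', QuotientGroup.eq]
        have h2 := mul_mem (mul_mem ha h1) (inv_mem hb)
        rw [he, residueEquiv_apply, residueEquiv_apply, mul_inv_rev] at h2
        simpa [mul_assoc] using h2
      subst hc
      rw [happly T c k, happly T c l]
      exact (hg1 c).2 T k l ((residue_mem_Kq hs hS hST c k l).1 hxy)
    · simp only [hg2 _ T _ hST]
  · refine mass_le_of_equiv e _ _ (sizeBound n p) fun c => ?_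
    refine le_trans (le_of_eq ?_) (hg4 c)
    refine congrArg mass (funext fun T => funext fun k => ?_)
    exact happly T c k
  · refine mass_le_of_equiv e _ _ C fun c => ?_
    refine le_trans (le_of_eq ?_) (hg3 c)
    refine congrArg mass (funext fun T => funext fun k => ?_)
    simp only [Pi.add_apply, delta, happly _ c k]

theorem linkQ_of_statement (hL : LinkStatement) :
    ∀ d : ℕ, ∃ n0 : ℕ, ∀ n : ℕ, n0 ≤ n → ∃ C P : ℕ, ∀ p : ℕ, ∀ _ : Fact p.Prime, P ≤ p →
      ∀ s : ℕ, 2 ≤ s → LinkQ n p s d C := by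
  intro d
  obtain ⟨n0, h⟩ := hL d
  refine ⟨n0, fun n hn => ?_⟩
  obtain ⟨C, P, h'⟩ := h n hn
  exact ⟨C, P, fun p hp hP s hs => linkQ_of_link hs (h' p hp hP)⟩

end Vale.Agent.P067
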